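import Vale.Agent.P161.Existence
import Vale.Agent.P161.Model
import Vale.Agent.P161.Crit.Critical

/-!
# The free Ising state on a regular tree is a factor of IID exactly up to the reconstruction threshold
-/

open MeasureTheory Vale.Agent.P161

namespace Vale.Agent.Results.P161.FullAnswer

universe u

theorem result (d : ℕ) (hd : 3 ≤ d) :
    (∃ (W : Type) (G : SimpleGraph W), IsRegularTree G d) ∧
    ∀ (V : Type u) (G : SimpleGraph V), IsRegularTree G d →
      ∀ β : ℝ, 0 ≤ β →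
        (∃! ν, IsFreeIsing G (Real.tanh β) ν) ∧
        ∀ ν, IsFreeIsing G (Real.tanh β) ν →
          (IsFIID G ν ↔ ((d : ℝ) - 1) * Real.tanh β ^ 2 ≤ 1) := by
  refine ⟨exists_regularTree d, fun V G hG β hβ => ?_⟩
  have hT : RTree G d := ⟨hG.1, hG.2, hd⟩
  have h0 : 0 ≤ Real.tanh β := by
    rw [Real.tanh_eq_sinh_div_cosh]
    exact div_nonneg (Real.sinh_nonneg_iff.2 hβ) (Real.cosh_pos β).le
  have h1 : Real.tanh β < 1 := Real.tanh_lt_one β
  obtain ⟨ν₀, hν₀⟩ := exists_freeIsing hT h0 h1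
  refine ⟨⟨ν₀, hν₀, fun ν hν => freeIsing_unique hT hν hν₀⟩, fun ν hν => ⟨fun hf => ?_, fun hle => ?_⟩⟩
  · by_contra hlt
    exact not_fiid hT h0 h1 (not_le.1 hlt) hν hf
  · rcases hle.lt_or_eq with hlt | heq
    · obtain ⟨ν₁, hν₁, hfiid⟩ := exists_fiid_freeIsing hT h0 hlt
      exact freeIsing_unique hT hν₁ hν ▸ hfiid
    · obtain ⟨ν₁, hν₁, hfiid⟩ := exists_fiid_critical hT h0 heq
      exact freeIsing_unique hT hν₁ hν ▸ hfiid

end Vale.Agent.Results.P161.FullAnswer
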